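import Mathlib

/-!
# Removing the top or the bottom term of a complex (P287 port of P294)
-/

open CategoryTheory Limits Pretriangulated Category HomologicalComplex

universe v u

namespace Vale.Agent.P287Z.O.H409

variable {C : Type u} [Category.{v} C] [Abelian C]

/-- a distinguished triangle from a degreewise split short exact sequence -/
theorem dist_of_split (S : ShortComplex (CochainComplex C ℤ))
    (σ : ∀ n, (S.map (eval C _ n)).Splitting) :
    ∃ h, Triangle.mk ((HomotopyCategory.quotient C (ComplexShape.up ℤ)).map S.f)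
      ((HomotopyCategory.quotient C (ComplexShape.up ℤ)).map S.g) h ∈ distTriang _ :=
  ⟨_, (HomotopyCategory.distinguished_iff_iso_trianglehOfDegreewiseSplit _).2
    ⟨S, σ, ⟨Iso.refl _⟩⟩⟩

/-- inclusion of the top term -/
noncomputable def topι (X : CochainComplex C ℤ) (a : ℤ) [X.IsStrictlyLE a] :
    (single C (ComplexShape.up ℤ) a).obj (X.X a) ⟶ X :=
  mkHomFromSingle (𝟙 _) (fun k (hk : (ComplexShape.up ℤ).Rel a k) =>
    (X.isZero_of_isStrictlyLE a k (by have : a + 1 = k := hk; lia)).eq_of_tgt _ _)

instance (X : CochainComplex C ℤ) (a : ℤ) [X.IsStrictlyLE a] : IsIso ((topι X a).f a) := by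
  rw [topι, mkHomFromSingle_f]
  infer_instance

/-- projection to the bottom term -/
noncomputable def botπ (X : CochainComplex C ℤ) (b : ℤ) [X.IsStrictlyGE b] :
    X ⟶ (single C (ComplexShape.up ℤ) b).obj (X.X b) :=
  mkHomToSingle (𝟙 _) (fun k (hk : (ComplexShape.up ℤ).Rel k b) =>
    (X.isZero_of_isStrictlyGE b k (by have : k + 1 = b := hk; lia)).eq_of_src _ _)

instance (X : CochainComplex C ℤ) (b : ℤ) [X.IsStrictlyGE b] : IsIso ((botπ X b).f b) := by
  rw [botπ, mkHomToSingle_f]
  infer_instance

/-- the complex without its top term -/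
noncomputable def topQ (X : CochainComplex C ℤ) (a : ℤ) [X.IsStrictlyLE a] :
    CochainComplex C ℤ := cokernel (topι X a)

/-- the complex without its bottom term -/
noncomputable def botK (X : CochainComplex C ℤ) (b : ℤ) [X.IsStrictlyGE b] :
    CochainComplex C ℤ := kernel (botπ X b)

/-- projection -/
noncomputable def topπ (X : CochainComplex C ℤ) (a : ℤ) [X.IsStrictlyLE a] :
    X ⟶ topQ X a := cokernel.π (topι X a)

/-- inclusion -/
noncomputable def botι (X : CochainComplex C ℤ) (b : ℤ) [X.IsStrictlyGE b] :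
    botK X b ⟶ X := kernel.ι (botπ X b)

theorem topι_topπ (X : CochainComplex C ℤ) (a : ℤ) [X.IsStrictlyLE a] :
    topι X a ≫ topπ X a = 0 := cokernel.condition _

theorem botι_botπ (X : CochainComplex C ℤ) (b : ℤ) [X.IsStrictlyGE b] :
    botι X b ≫ botπ X b = 0 := kernel.condition _

/-- `0 → top → X → X / top → 0` -/
noncomputable def topS (X : CochainComplex C ℤ) (a : ℤ) [X.IsStrictlyLE a] :
    ShortComplex (CochainComplex C ℤ) :=
  ShortComplex.mk (topι X a) (topπ X a) (cokernel.condition _)

/-- `0 → ker → X → bottom → 0` -/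
noncomputable def botS (X : CochainComplex C ℤ) (b : ℤ) [X.IsStrictlyGE b] :
    ShortComplex (CochainComplex C ℤ) :=
  ShortComplex.mk (botι X b) (botπ X b) (kernel.condition _)

section

variable (X : CochainComplex C ℤ) (a : ℤ) [X.IsStrictlyLE a]

theorem topS_exact : (topS X a).Exact :=
  ShortComplex.exact_of_g_is_cokernel _ (cokernelIsCokernel (topι X a))

theorem topS_exact_map (n : ℤ) : ((topS X a).map (eval C _ n)).Exact :=
  (topS_exact X a).map (eval C _ n)

instance (n : ℤ) : Epi ((topπ X a).f n) :=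
  inferInstanceAs (Epi ((eval C (ComplexShape.up ℤ) n).map (cokernel.π (topι X a))))

theorem topS_isIso (n : ℤ) (hn : n ≠ a) : IsIso ((topπ X a).f n) := by
  have h1 : ((topS X a).map (eval C _ n)).f = 0 :=
    (isZero_single_obj_X (ComplexShape.up ℤ) a (X.X a) n hn).eq_of_src _ _
  have h2 : Mono ((topS X a).map (eval C _ n)).g := (topS_exact_map X a n).mono_g h1
  have h3 : Mono ((topπ X a).f n) := h2
  exact isIso_of_mono_of_epi _

theorem topQ_isZero : IsZero ((topQ X a).X a) := by
  have h1 : (topι X a).f a ≫ (topπ X a).f a = 0 := by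
    rw [← comp_f, topι_topπ, zero_f]
  have h2 : (topπ X a).f a = 0 := by
    rw [← cancel_epi ((topι X a).f a), h1, comp_zero]
  exact IsZero.of_epi_eq_zero _ h2

theorem topQ_isStrictlyLE (a' : ℤ) (h : a' = a - 1) : (topQ X a).IsStrictlyLE a' := by
  rw [CochainComplex.isStrictlyLE_iff]
  intro i hi
  by_cases hia : i = a
  · subst hia
    exact topQ_isZero X i
  · have := topS_isIso X a i hia
    exact (X.isZero_of_isStrictlyLE a i (by lia)).of_iso
      (asIso ((topπ X a).f i)).symm

/-- the terms in degrees `≠ a` -/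
noncomputable def topQ_X (n : ℤ) (hn : n ≠ a) : (topQ X a).X n ≅ X.X n :=
  have := topS_isIso X a n hn
  (asIso ((topπ X a).f n)).symm

/-- the splittings -/
noncomputable def topSplit (n : ℤ) : ((topS X a).map (eval C _ n)).Splitting := by
  by_cases hn : n = a
  · subst hn
    exact .ofIsIsoOfIsZero _ (inferInstanceAs (IsIso ((topι X n).f n))) (topQ_isZero X n)
  · exact .ofIsZeroOfIsIso _ (isZero_single_obj_X (ComplexShape.up ℤ) a (X.X a) n hn)
      (topS_isIso X a n hn)

theorem topT : ∃ f g h,
    Triangle.mk (C := HomotopyCategory C (ComplexShape.up ℤ))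
      (X := (HomotopyCategory.quotient C (ComplexShape.up ℤ)).obj
        ((single C (ComplexShape.up ℤ) a).obj (X.X a)))
      (Y := (HomotopyCategory.quotient C (ComplexShape.up ℤ)).obj X)
      (Z := (HomotopyCategory.quotient C (ComplexShape.up ℤ)).obj (topQ X a)) f g h ∈
      distTriang _ := by
  obtain ⟨h, hh⟩ := dist_of_split (topS X a) (topSplit X a)
  exact ⟨_, _, h, hh⟩

end

section

variable (X : CochainComplex C ℤ) (b : ℤ) [X.IsStrictlyGE b]

theorem botS_exact : (botS X b).Exact :=
  ShortComplex.exact_of_f_is_kernel _ (kernelIsKernel (botπ X b))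

theorem botS_exact_map (n : ℤ) : ((botS X b).map (eval C _ n)).Exact :=
  (botS_exact X b).map (eval C _ n)

instance (n : ℤ) : Mono ((botι X b).f n) :=
  inferInstanceAs (Mono ((eval C (ComplexShape.up ℤ) n).map (kernel.ι (botπ X b))))

theorem botS_isIso (n : ℤ) (hn : n ≠ b) : IsIso ((botι X b).f n) := by
  have h1 : ((botS X b).map (eval C _ n)).g = 0 :=
    (isZero_single_obj_X (ComplexShape.up ℤ) b (X.X b) n hn).eq_of_tgt _ _
  have h2 : Epi ((botS X b).map (eval C _ n)).f := (botS_exact_map X b n).epi_f h1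
  have h3 : Epi ((botι X b).f n) := h2
  exact isIso_of_mono_of_epi _

theorem botK_isZero : IsZero ((botK X b).X b) := by
  have h1 : (botι X b).f b ≫ (botπ X b).f b = 0 := by
    rw [← comp_f, botι_botπ, zero_f]
  have h2 : (botι X b).f b = 0 := by
    rw [← cancel_mono ((botπ X b).f b), h1, zero_comp]
  exact IsZero.of_mono_eq_zero _ h2

theorem botK_isStrictlyGE (b' : ℤ) (h : b' = b + 1) : (botK X b).IsStrictlyGE b' := by
  rw [CochainComplex.isStrictlyGE_iff]
  intro i hi
  by_cases hib : i = b
  · subst hib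
    exact botK_isZero X i
  · have := botS_isIso X b i hib
    exact (X.isZero_of_isStrictlyGE b i (by lia)).of_iso
      (asIso ((botι X b).f i))

/-- the terms in degrees `≠ b` -/
noncomputable def botK_X (n : ℤ) (hn : n ≠ b) : (botK X b).X n ≅ X.X n :=
  have := botS_isIso X b n hn
  asIso ((botι X b).f n)

/-- the splittings -/
noncomputable def botSplit (n : ℤ) : ((botS X b).map (eval C _ n)).Splitting := by
  by_cases hn : n = b
  · subst hn
    exact .ofIsZeroOfIsIso _ (botK_isZero X n) (inferInstanceAs (IsIso ((botπ X n).f n)))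
  · exact .ofIsIsoOfIsZero _ (botS_isIso X b n hn)
      (isZero_single_obj_X (ComplexShape.up ℤ) b (X.X b) n hn)

theorem botT : ∃ f g h,
    Triangle.mk (C := HomotopyCategory C (ComplexShape.up ℤ))
      (X := (HomotopyCategory.quotient C (ComplexShape.up ℤ)).obj (botK X b))
      (Y := (HomotopyCategory.quotient C (ComplexShape.up ℤ)).obj X)
      (Z := (HomotopyCategory.quotient C (ComplexShape.up ℤ)).obj
        ((single C (ComplexShape.up ℤ) b).obj (X.X b))) f g h ∈
      distTriang _ := by
  obtain ⟨h, hh⟩ := dist_of_split (botS X b) (botSplit X b)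
  exact ⟨_, _, h, hh⟩

end

end Vale.Agent.P287Z.O.H409
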