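import Vale.Agent.P287Z.O.H409.Tri
import Vale.Agent.P287Z.O.H409.Peel

/-!
# `Hom` in the homotopy category and in the derived category (P287 port of P294, block B6)

For `X` bounded above and `Y` bounded below with `Ext^n(Xⁱ, Yʲ) = 0` for all `n ≥ 1`, the map
`Hom_K(X, Y⟦n⟧) → Hom_D(X, Y⟦n⟧)` is bijective.
-/

set_option linter.unusedSectionVars false

open CategoryTheory Limits Pretriangulated Category HomologicalComplex

universe w v u

namespace Vale.Agent.P287Z.O.H409

variable {C : Type u} [Category.{v} C] [Abelian C]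

theorem hom_zero_K (X Y : CochainComplex C ℤ) (p r : ℤ) [X.IsStrictlyLE p] [Y.IsStrictlyGE r]
    (h : p < r) (f : (HomotopyCategory.quotient C (ComplexShape.up ℤ)).obj X ⟶ (HomotopyCategory.quotient C (ComplexShape.up ℤ)).obj Y) : f = 0 := by
  obtain ⟨g, rfl⟩ := (HomotopyCategory.quotient C (ComplexShape.up ℤ)).map_surjective f
  have : g = 0 := by
    ext i
    by_cases hi : p < i
    · exact (X.isZero_of_isStrictlyLE p i hi).eq_of_src _ _
    · exact (Y.isZero_of_isStrictlyGE r i (by lia)).eq_of_tgt _ _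
  rw [this, Functor.map_zero]

variable [HasDerivedCategory.{w} C]

theorem hom_zero_D (X Y : CochainComplex C ℤ) (p r : ℤ) [X.IsStrictlyLE p] [Y.IsStrictlyGE r]
    (h : p < r) (f : (DerivedCategory.Qh (C := C)).obj ((HomotopyCategory.quotient C (ComplexShape.up ℤ)).obj X) ⟶ (DerivedCategory.Qh (C := C)).obj ((HomotopyCategory.quotient C (ComplexShape.up ℤ)).obj Y)) : f = 0 := by
  have h1 : (DerivedCategory.Q.obj X).IsLE p := inferInstance
  have h2 : (DerivedCategory.Q.obj Y).IsGE r := inferInstance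
  have h3 : (DerivedCategory.quotientCompQhIso C).inv.app X ≫ f ≫
      (DerivedCategory.quotientCompQhIso C).hom.app Y = 0 :=
    DerivedCategory.TStructure.t.zero_of_isLE_of_isGE _ p r h h1 h2
  rw [← cancel_epi ((DerivedCategory.quotientCompQhIso C).inv.app X),
    ← cancel_mono ((DerivedCategory.quotientCompQhIso C).hom.app Y), Category.assoc, h3,
    comp_zero, zero_comp]

theorem hom_zero (X Y : CochainComplex C ℤ) (p r n : ℤ) [X.IsStrictlyLE p] [Y.IsStrictlyGE r]
    (h : p < r - n) : (∀ f : (HomotopyCategory.quotient C (ComplexShape.up ℤ)).obj X ⟶ ((HomotopyCategory.quotient C (ComplexShape.up ℤ)).obj Y)⟦n⟧, f = 0) ∧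
      (∀ f : (DerivedCategory.Qh (C := C)).obj ((HomotopyCategory.quotient C (ComplexShape.up ℤ)).obj X) ⟶ (DerivedCategory.Qh (C := C)).obj (((HomotopyCategory.quotient C (ComplexShape.up ℤ)).obj Y)⟦n⟧), f = 0) := by
  have h1 : (Y⟦n⟧).IsStrictlyGE (r - n) := Y.isStrictlyGE_shift r n (r - n) (by lia)
  let e : (HomotopyCategory.quotient C (ComplexShape.up ℤ)).obj (Y⟦n⟧) ≅ ((HomotopyCategory.quotient C (ComplexShape.up ℤ)).obj Y)⟦n⟧ := ((HomotopyCategory.quotient C (ComplexShape.up ℤ)).commShiftIso n).app Y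
  constructor
  · intro f
    rw [← cancel_mono e.inv, zero_comp]
    exact hom_zero_K X (Y⟦n⟧) p (r - n) h _
  · intro f
    rw [← cancel_mono ((DerivedCategory.Qh (C := C)).map e.inv), zero_comp]
    exact hom_zero_D X (Y⟦n⟧) p (r - n) h _

theorem InjS.iso' {K : Type*} {D : Type*} [Category K] [Category D] [Preadditive K]
    [Preadditive D] [HasZeroObject K] [HasZeroObject D] [HasShift K ℤ] [HasShift D ℤ]
    [∀ n : ℤ, (shiftFunctor K n).Additive] [∀ n : ℤ, (shiftFunctor D n).Additive]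
    [Pretriangulated K] [Pretriangulated D] {F : K ⥤ D} {X Y X' Y' : K} (h : InjS F X Y)
    (e : X ≅ X') (e' : Y ≅ Y') : InjS F X' Y' :=
  fun n => (h n).iso e ((shiftFunctor K n).mapIso e')

theorem SurS.iso' {K : Type*} {D : Type*} [Category K] [Category D] [Preadditive K]
    [Preadditive D] [HasZeroObject K] [HasZeroObject D] [HasShift K ℤ] [HasShift D ℤ]
    [∀ n : ℤ, (shiftFunctor K n).Additive] [∀ n : ℤ, (shiftFunctor D n).Additive]
    [Pretriangulated K] [Pretriangulated D] {F : K ⥤ D} {X Y X' Y' : K} (h : SurS F X Y)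
    (e : X ≅ X') (e' : Y ≅ Y') : SurS F X' Y' :=
  fun n => (h n).iso e ((shiftFunctor K n).mapIso e')

/-- single objects in degree `0` -/
theorem base0 (A B : C) (h : ∀ n : ℤ, 0 < n → ∀ f : (DerivedCategory.singleFunctor C 0).obj A ⟶
      ((DerivedCategory.singleFunctor C 0).obj B)⟦n⟧, f = 0) :
    InjS (DerivedCategory.Qh (C := C)) ((HomotopyCategory.quotient C (ComplexShape.up ℤ)).obj ((single C (ComplexShape.up ℤ) 0).obj A))
        ((HomotopyCategory.quotient C (ComplexShape.up ℤ)).obj ((single C (ComplexShape.up ℤ) 0).obj B)) ∧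
      SurS (DerivedCategory.Qh (C := C)) ((HomotopyCategory.quotient C (ComplexShape.up ℤ)).obj ((single C (ComplexShape.up ℤ) 0).obj A))
        ((HomotopyCategory.quotient C (ComplexShape.up ℤ)).obj ((single C (ComplexShape.up ℤ) 0).obj B)) := by
  set SA : CochainComplex C ℤ := (single C (ComplexShape.up ℤ) 0).obj A
  set SB : CochainComplex C ℤ := (single C (ComplexShape.up ℤ) 0).obj B
  have e0 : ((HomotopyCategory.quotient C (ComplexShape.up ℤ)).obj SB) ≅ ((HomotopyCategory.quotient C (ComplexShape.up ℤ)).obj SB)⟦(0 : ℤ)⟧ :=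
    ((shiftFunctorZero (HomotopyCategory C (ComplexShape.up ℤ)) ℤ).app _).symm
  have I0 : Inj (DerivedCategory.Qh (C := C)) ((HomotopyCategory.quotient C (ComplexShape.up ℤ)).obj SA) ((HomotopyCategory.quotient C (ComplexShape.up ℤ)).obj SB) := by
    intro f hf
    obtain ⟨g, rfl⟩ := (HomotopyCategory.quotient C (ComplexShape.up ℤ)).map_surjective f
    obtain ⟨g', rfl⟩ := (single C (ComplexShape.up ℤ) 0).map_surjective g
    have h1 : (DerivedCategory.singleFunctor C 0).map g' = 0 := hf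
    have h2 : g' = 0 := (DerivedCategory.singleFunctor C 0).map_injective (by
      rw [h1, Functor.map_zero])
    rw [h2, Functor.map_zero, Functor.map_zero]
  have S0 : Sur (DerivedCategory.Qh (C := C)) ((HomotopyCategory.quotient C (ComplexShape.up ℤ)).obj SA) ((HomotopyCategory.quotient C (ComplexShape.up ℤ)).obj SB) := by
    intro f
    obtain ⟨g, hg⟩ := (DerivedCategory.singleFunctor C 0).map_surjective
      (X := A) (Y := B) f
    exact ⟨(HomotopyCategory.quotient C (ComplexShape.up ℤ)).map ((single C (ComplexShape.up ℤ) 0).map g), hg⟩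
  have hneg : ∀ n : ℤ, n < 0 → (∀ f : (HomotopyCategory.quotient C (ComplexShape.up ℤ)).obj SA ⟶ ((HomotopyCategory.quotient C (ComplexShape.up ℤ)).obj SB)⟦n⟧, f = 0) ∧
      (∀ f : (DerivedCategory.Qh (C := C)).obj ((HomotopyCategory.quotient C (ComplexShape.up ℤ)).obj SA) ⟶ (DerivedCategory.Qh (C := C)).obj (((HomotopyCategory.quotient C (ComplexShape.up ℤ)).obj SB)⟦n⟧), f = 0) := fun n hn =>
    hom_zero SA SB 0 0 n (by lia)
  have hpos : ∀ n : ℤ, 0 < n → (∀ f : (HomotopyCategory.quotient C (ComplexShape.up ℤ)).obj SA ⟶ ((HomotopyCategory.quotient C (ComplexShape.up ℤ)).obj SB)⟦n⟧, f = 0) := by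
    intro n hn f
    have h1 : CochainComplex.IsStrictlyLE (SB⟦n⟧) (0 - n) :=
      CochainComplex.isStrictlyLE_shift SB 0 n (0 - n) (by lia)
    let e : (HomotopyCategory.quotient C (ComplexShape.up ℤ)).obj (SB⟦n⟧) ≅ ((HomotopyCategory.quotient C (ComplexShape.up ℤ)).obj SB)⟦n⟧ := ((HomotopyCategory.quotient C (ComplexShape.up ℤ)).commShiftIso n).app SB
    rw [← cancel_mono e.inv, zero_comp]
    obtain ⟨g, hg⟩ := (HomotopyCategory.quotient C (ComplexShape.up ℤ)).map_surjective (f ≫ e.inv)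
    rw [← hg]
    have : g = 0 := by
      refine HomologicalComplex.hom_ext _ _ fun i => ?_
      by_cases hi : 0 ≤ i
      · exact (CochainComplex.isZero_of_isStrictlyLE (SB⟦n⟧) (0 - n) i (by lia)).eq_of_tgt _ _
      · exact (CochainComplex.isZero_of_isStrictlyGE SA 0 i (by lia)).eq_of_src _ _
    rw [this, Functor.map_zero]
  refine ⟨fun n => ?_, fun n => ?_⟩
  · rcases lt_trichotomy n 0 with hn | rfl | hn
    · exact fun f _ => (hneg n hn).1 f
    · exact I0.iso (Iso.refl _) e0
    · exact fun f _ => hpos n hn f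
  · rcases lt_trichotomy n 0 with hn | rfl | hn
    · exact fun g => ⟨0, by rw [Functor.map_zero, (hneg n hn).2 g]⟩
    · exact S0.iso (Iso.refl _) e0
    · intro g
      refine ⟨0, ?_⟩
      rw [Functor.map_zero]
      have h3 : g ≫ ((DerivedCategory.Qh (C := C)).commShiftIso n).hom.app ((HomotopyCategory.quotient C (ComplexShape.up ℤ)).obj SB) = 0 := h n hn _
      rw [← cancel_mono (((DerivedCategory.Qh (C := C)).commShiftIso n).hom.app ((HomotopyCategory.quotient C (ComplexShape.up ℤ)).obj SB)), h3, zero_comp]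

/-- a single complex as a shift of the one in degree `0` -/
noncomputable def singleIso (A : C) (i : ℤ) :
    ((HomotopyCategory.quotient C (ComplexShape.up ℤ)).obj ((single C (ComplexShape.up ℤ) 0).obj A))⟦-i⟧ ≅
      (HomotopyCategory.quotient C (ComplexShape.up ℤ)).obj ((single C (ComplexShape.up ℤ) i).obj A) :=
  ((HomotopyCategory.singleFunctors C).shiftIso (-i) i 0 (by lia)).app A

/-- single objects -/
theorem base (A B : C) (i j : ℤ)
    (h : ∀ n : ℤ, 0 < n → ∀ f : (DerivedCategory.singleFunctor C 0).obj A ⟶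
      ((DerivedCategory.singleFunctor C 0).obj B)⟦n⟧, f = 0) :
    InjS (DerivedCategory.Qh (C := C)) ((HomotopyCategory.quotient C (ComplexShape.up ℤ)).obj ((single C (ComplexShape.up ℤ) i).obj A))
        ((HomotopyCategory.quotient C (ComplexShape.up ℤ)).obj ((single C (ComplexShape.up ℤ) j).obj B)) ∧
      SurS (DerivedCategory.Qh (C := C)) ((HomotopyCategory.quotient C (ComplexShape.up ℤ)).obj ((single C (ComplexShape.up ℤ) i).obj A))
        ((HomotopyCategory.quotient C (ComplexShape.up ℤ)).obj ((single C (ComplexShape.up ℤ) j).obj B)) :=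
  ⟨(((base0 A B h).1.shiftr (-j)).shiftl (-i)).iso' (singleIso A i) (singleIso B j),
    (((base0 A B h).2.shiftr (-j)).shiftl (-i)).iso' (singleIso A i) (singleIso B j)⟩

/-- iterated removal of the top term -/
noncomputable def topSeq (X : CochainComplex C ℤ) (a : ℤ) [hX : X.IsStrictlyLE a] : (k : ℕ) →
    {Y : CochainComplex C ℤ // Y.IsStrictlyLE (a - k)}
  | 0 => ⟨X, by simpa using hX⟩
  | k + 1 => ⟨have := (topSeq X a k).2; topQ (topSeq X a k).1 (a - k),
      have := (topSeq X a k).2; topQ_isStrictlyLE _ _ _ (by push_cast; ring)⟩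

theorem topSeq_iso (X : CochainComplex C ℤ) (a : ℤ) [hX : X.IsStrictlyLE a] (k : ℕ) (i : ℤ)
    (hi : i ≤ a - k) : Nonempty ((topSeq X a k).1.X i ≅ X.X i) := by
  induction k with
  | zero => exact ⟨Iso.refl _⟩
  | succ k ih =>
    obtain ⟨e⟩ := ih (by push_cast at hi; lia)
    have := (topSeq X a k).2
    exact ⟨topQ_X (topSeq X a k).1 (a - k) i (by push_cast at hi; lia) ≪≫ e⟩

/-- iterated removal of the bottom term -/
noncomputable def botSeq (X : CochainComplex C ℤ) (b : ℤ) [hX : X.IsStrictlyGE b] : (k : ℕ) →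
    {Y : CochainComplex C ℤ // Y.IsStrictlyGE (b + k)}
  | 0 => ⟨X, by simpa using hX⟩
  | k + 1 => ⟨have := (botSeq X b k).2; botK (botSeq X b k).1 (b + k),
      have := (botSeq X b k).2; botK_isStrictlyGE _ _ _ (by push_cast; ring)⟩

theorem botSeq_iso (X : CochainComplex C ℤ) (b : ℤ) [hX : X.IsStrictlyGE b] (k : ℕ) (i : ℤ)
    (hi : b + k ≤ i) : Nonempty ((botSeq X b k).1.X i ≅ X.X i) := by
  induction k with
  | zero => exact ⟨Iso.refl _⟩
  | succ k ih =>
    obtain ⟨e⟩ := ih (by push_cast at hi; lia)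
    have := (botSeq X b k).2
    exact ⟨botK_X (botSeq X b k).1 (b + k) i (by push_cast at hi; lia) ≪≫ e⟩

/-- the vanishing condition is invariant under isomorphism -/
theorem van_iso {A B A' B' : C} (e : A' ≅ A) (e' : B' ≅ B)
    (h : ∀ n : ℤ, 0 < n → ∀ f : (DerivedCategory.singleFunctor C 0).obj A ⟶
      ((DerivedCategory.singleFunctor C 0).obj B)⟦n⟧, f = 0) (n : ℤ) (hn : 0 < n)
    (f : (DerivedCategory.singleFunctor C 0).obj A' ⟶
      ((DerivedCategory.singleFunctor C 0).obj B')⟦n⟧) : f = 0 := by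
  have h1 := h n hn ((DerivedCategory.singleFunctor C 0).map e.inv ≫ f ≫
    ((DerivedCategory.singleFunctor C 0).map e'.hom)⟦n⟧')
  rw [← cancel_epi ((DerivedCategory.singleFunctor C 0).map e.inv),
    ← cancel_mono (((DerivedCategory.singleFunctor C 0).map e'.hom)⟦n⟧'), Category.assoc, h1,
    comp_zero, zero_comp]

theorem ff_single (A : C) (i : ℤ) (Y : CochainComplex C ℤ) (b : ℤ) [Y.IsStrictlyGE b]
    (h : ∀ j n : ℤ, 0 < n → ∀ f : (DerivedCategory.singleFunctor C 0).obj A ⟶
      ((DerivedCategory.singleFunctor C 0).obj (Y.X j))⟦n⟧, f = 0) :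
    InjS (DerivedCategory.Qh (C := C)) ((HomotopyCategory.quotient C (ComplexShape.up ℤ)).obj ((single C (ComplexShape.up ℤ) i).obj A)) ((HomotopyCategory.quotient C (ComplexShape.up ℤ)).obj Y) ∧
      SurS (DerivedCategory.Qh (C := C)) ((HomotopyCategory.quotient C (ComplexShape.up ℤ)).obj ((single C (ComplexShape.up ℤ) i).obj A)) ((HomotopyCategory.quotient C (ComplexShape.up ℤ)).obj Y) := by
  have hb : ∀ k : ℕ, InjS (DerivedCategory.Qh (C := C)) ((HomotopyCategory.quotient C (ComplexShape.up ℤ)).obj ((single C (ComplexShape.up ℤ) i).obj A))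
        ((HomotopyCategory.quotient C (ComplexShape.up ℤ)).obj ((single C (ComplexShape.up ℤ) (b + k)).obj ((botSeq Y b k).1.X (b + k)))) ∧
      SurS (DerivedCategory.Qh (C := C)) ((HomotopyCategory.quotient C (ComplexShape.up ℤ)).obj ((single C (ComplexShape.up ℤ) i).obj A))
        ((HomotopyCategory.quotient C (ComplexShape.up ℤ)).obj ((single C (ComplexShape.up ℤ) (b + k)).obj
          ((botSeq Y b k).1.X (b + k)))) := by
    intro k
    obtain ⟨e⟩ := botSeq_iso Y b k (b + k) le_rfl
    exact base _ _ _ _ (van_iso (Iso.refl _) e (h (b + k)))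
  refine tower' (F := (DerivedCategory.Qh (C := C)))
    (S := fun k => (HomotopyCategory.quotient C (ComplexShape.up ℤ)).obj ((single C (ComplexShape.up ℤ) (b + k)).obj
      ((botSeq Y b k).1.X (b + k))))
    (Y := fun k => (HomotopyCategory.quotient C (ComplexShape.up ℤ)).obj (botSeq Y b k).1) ?_ (fun k => (hb k).1) (fun k => (hb k).2) ?_
  · intro k
    have := (botSeq Y b k).2
    exact botT (botSeq Y b k).1 (b + k)
  · intro n
    refine ⟨(n + i - b + 1).toNat, fun k hk => ?_⟩
    have := (botSeq Y b k).2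
    exact hom_zero _ _ i (b + k) n (by lia)

/-- **Homotopy classes = morphisms in the derived category**, for `X` bounded above and `Y`
bounded below with `Ext^n(Xⁱ, Yʲ) = 0` for `n ≥ 1`. -/
theorem ffS (X Y : CochainComplex C ℤ) (a b : ℤ) (hX : X.IsStrictlyLE a) (hY : Y.IsStrictlyGE b)
    (h : ∀ i j n : ℤ, 0 < n → ∀ f : (DerivedCategory.singleFunctor C 0).obj (X.X i) ⟶
      ((DerivedCategory.singleFunctor C 0).obj (Y.X j))⟦n⟧, f = 0) :
    InjS (DerivedCategory.Qh (C := C)) ((HomotopyCategory.quotient C (ComplexShape.up ℤ)).obj X) ((HomotopyCategory.quotient C (ComplexShape.up ℤ)).obj Y) ∧ SurS (DerivedCategory.Qh (C := C)) ((HomotopyCategory.quotient C (ComplexShape.up ℤ)).obj X) ((HomotopyCategory.quotient C (ComplexShape.up ℤ)).obj Y) := by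
  have hb : ∀ k : ℕ,
      InjS (DerivedCategory.Qh (C := C)) ((HomotopyCategory.quotient C (ComplexShape.up ℤ)).obj ((single C (ComplexShape.up ℤ) (a - k)).obj
        ((topSeq X a k).1.X (a - k)))) ((HomotopyCategory.quotient C (ComplexShape.up ℤ)).obj Y) ∧
      SurS (DerivedCategory.Qh (C := C)) ((HomotopyCategory.quotient C (ComplexShape.up ℤ)).obj ((single C (ComplexShape.up ℤ) (a - k)).obj
        ((topSeq X a k).1.X (a - k)))) ((HomotopyCategory.quotient C (ComplexShape.up ℤ)).obj Y) := by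
    intro k
    obtain ⟨e⟩ := topSeq_iso X a k (a - k) le_rfl
    exact ff_single _ _ Y b (fun j => van_iso e (Iso.refl _) (h (a - k) j))
  refine tower (F := (DerivedCategory.Qh (C := C)))
    (S := fun k => (HomotopyCategory.quotient C (ComplexShape.up ℤ)).obj ((single C (ComplexShape.up ℤ) (a - k)).obj
      ((topSeq X a k).1.X (a - k))))
    (X := fun k => (HomotopyCategory.quotient C (ComplexShape.up ℤ)).obj (topSeq X a k).1) ?_ (fun k => (hb k).1) (fun k => (hb k).2) ?_
  · intro k
    have := (topSeq X a k).2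
    exact topT (topSeq X a k).1 (a - k)
  · intro n
    refine ⟨(a - b + n + 1).toNat, fun k hk => ?_⟩
    have := (topSeq X a k).2
    exact hom_zero _ _ (a - k) b n (by lia)

/-- **Block B6.** `Hom_K(X, Y⟦n⟧) = Hom_D(X, Y⟦n⟧)` for `X` bounded above and `Y` bounded below
with `Ext^n(Xⁱ, Yʲ) = 0` for `n ≥ 1`. -/
theorem ff (X Y : CochainComplex C ℤ) (a b : ℤ) (hX : X.IsStrictlyLE a) (hY : Y.IsStrictlyGE b)
    (h : ∀ i j n : ℤ, 0 < n → ∀ f : (DerivedCategory.singleFunctor C 0).obj (X.X i) ⟶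
      ((DerivedCategory.singleFunctor C 0).obj (Y.X j))⟦n⟧, f = 0) (n : ℤ) :
    Function.Bijective (fun f : (HomotopyCategory.quotient C (ComplexShape.up ℤ)).obj X ⟶
      ((HomotopyCategory.quotient C (ComplexShape.up ℤ)).obj Y)⟦n⟧ =>
        DerivedCategory.Qh.map f) :=
  ((ffS X Y a b hX hY h).1 n).bij ((ffS X Y a b hX hY h).2 n)

/-- the same without shift -/
theorem ff0 (X Y : CochainComplex C ℤ) (a b : ℤ) (hX : X.IsStrictlyLE a) (hY : Y.IsStrictlyGE b)
    (h : ∀ i j n : ℤ, 0 < n → ∀ f : (DerivedCategory.singleFunctor C 0).obj (X.X i) ⟶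
      ((DerivedCategory.singleFunctor C 0).obj (Y.X j))⟦n⟧, f = 0) :
    Function.Bijective (fun f : (HomotopyCategory.quotient C (ComplexShape.up ℤ)).obj X ⟶
      (HomotopyCategory.quotient C (ComplexShape.up ℤ)).obj Y => DerivedCategory.Qh.map f) := by
  have e := (shiftFunctorZero (HomotopyCategory C (ComplexShape.up ℤ)) ℤ).app
    ((HomotopyCategory.quotient C (ComplexShape.up ℤ)).obj Y)
  exact (((ffS X Y a b hX hY h).1 0).iso (Iso.refl _) e).bij
    (((ffS X Y a b hX hY h).2 0).iso (Iso.refl _) e)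

end Vale.Agent.P287Z.O.H409
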