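import Vale.Agent.P287Z.O.H409.FF

/-!
# Termwise bijective functors and homotopy classes (P287 port of P294-L)
-/

set_option linter.unusedSectionVars false

open CategoryTheory Limits Category HomologicalComplex

universe v₁ v₂ u₁ u₂

namespace Vale.Agent.P287Z.O.H409

variable {C : Type u₁} {D : Type u₂} [Category.{v₁} C] [Category.{v₂} D] [Preadditive C]
  [Preadditive D] (π : C ⥤ D) [π.Additive] {X Y : CochainComplex C ℤ}

/-- lifting a homotopy to zero -/
theorem term_homotopy (h : ∀ i j, Function.Bijective (fun f : X.X i ⟶ Y.X j => π.map f))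
    (f : X ⟶ Y) (hf : Homotopy ((π.mapHomologicalComplex (ComplexShape.up ℤ)).map f) 0) :
    Nonempty (Homotopy f 0) := by
  choose s hs using fun i j => (h i j).2 (hf.hom i j)
  have hs' : ∀ i j, π.map (s i j) = hf.hom i j := hs
  refine ⟨⟨fun i j => s i j, fun i j hij => ?_, fun i => ?_⟩⟩
  · apply (h i j).1
    exact (hs' i j).trans ((hf.zero i j hij).trans (π.map_zero _ _).symm)
  · apply (h i i).1
    have h1 := hf.comm i
    rw [dNext_eq hf.hom (show (ComplexShape.up ℤ).Rel i (i + 1) from rfl),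
      prevD_eq hf.hom (show (ComplexShape.up ℤ).Rel (i - 1) i from sub_add_cancel i 1)] at h1
    change π.map (f.f i) = π.map (dNext i (fun i j => s i j) + prevD i (fun i j => s i j) + 0)
    rw [dNext_eq (fun i j => s i j) (show (ComplexShape.up ℤ).Rel i (i + 1) from rfl),
      prevD_eq (fun i j => s i j) (show (ComplexShape.up ℤ).Rel (i - 1) i from sub_add_cancel i 1),
      π.map_add, π.map_add, π.map_comp, π.map_comp, π.map_zero, hs', hs']
    exact h1

/-- lifting a chain map -/
theorem term_lift (h : ∀ i j, Function.Bijective (fun f : X.X i ⟶ Y.X j => π.map f))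
    (g : (π.mapHomologicalComplex (ComplexShape.up ℤ)).obj X ⟶
      (π.mapHomologicalComplex (ComplexShape.up ℤ)).obj Y) :
    ∃ f : X ⟶ Y, (π.mapHomologicalComplex (ComplexShape.up ℤ)).map f = g := by
  choose s hs using fun i => (h i i).2 (g.f i)
  have hs' : ∀ i, π.map (s i) = g.f i := hs
  refine ⟨⟨s, fun i j _ => ?_⟩, ?_⟩
  · apply (h i j).1
    change π.map (s i ≫ Y.d i j) = π.map (X.d i j ≫ s j)
    rw [π.map_comp, π.map_comp, hs', hs']
    exact g.comm i j
  · ext1 i
    exact hs' i

/-- a functor which is bijective on all `Hom(Xⁱ, Yʲ)` is bijective on homotopy classes -/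
theorem term_bij (h : ∀ i j, Function.Bijective (fun f : X.X i ⟶ Y.X j => π.map f)) :
    Function.Bijective (fun f : (HomotopyCategory.quotient C (ComplexShape.up ℤ)).obj X ⟶
      (HomotopyCategory.quotient C (ComplexShape.up ℤ)).obj Y =>
        (π.mapHomotopyCategory (ComplexShape.up ℤ)).map f) := by
  constructor
  · intro f g hfg
    obtain ⟨f, rfl⟩ := (HomotopyCategory.quotient C (ComplexShape.up ℤ)).map_surjective f
    obtain ⟨g, rfl⟩ := (HomotopyCategory.quotient C (ComplexShape.up ℤ)).map_surjective g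
    have h1 : (HomotopyCategory.quotient D (ComplexShape.up ℤ)).map
        ((π.mapHomologicalComplex (ComplexShape.up ℤ)).map (f - g)) = 0 := by
      have h2 : (HomotopyCategory.quotient D (ComplexShape.up ℤ)).map
          ((π.mapHomologicalComplex (ComplexShape.up ℤ)).map f) =
        (HomotopyCategory.quotient D (ComplexShape.up ℤ)).map
          ((π.mapHomologicalComplex (ComplexShape.up ℤ)).map g) := hfg
      rw [Functor.map_sub, Functor.map_sub, h2, sub_self]
    obtain ⟨H⟩ := term_homotopy π h (f - g) (HomotopyCategory.homotopyOfEq _ _ (by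
      rw [h1, Functor.map_zero]))
    have h3 := HomotopyCategory.eq_of_homotopy _ _ H
    rw [Functor.map_sub, Functor.map_zero, sub_eq_zero] at h3
    exact h3
  · intro g
    obtain ⟨g', hg'⟩ := (HomotopyCategory.quotient D (ComplexShape.up ℤ)).map_surjective
      (X := (π.mapHomologicalComplex (ComplexShape.up ℤ)).obj X)
      (Y := (π.mapHomologicalComplex (ComplexShape.up ℤ)).obj Y) g
    obtain ⟨f, hf⟩ := term_lift π h g'
    refine ⟨(HomotopyCategory.quotient C (ComplexShape.up ℤ)).map f, ?_⟩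
    rw [← hg', ← hf]
    rfl

/-- the same with shifts of the target -/
theorem term_bij_shift (h : ∀ i j, Function.Bijective (fun f : X.X i ⟶ Y.X j => π.map f)) (n : ℤ) :
    Function.Bijective (fun f : (HomotopyCategory.quotient C (ComplexShape.up ℤ)).obj X ⟶
      ((HomotopyCategory.quotient C (ComplexShape.up ℤ)).obj Y)⟦n⟧ =>
        (π.mapHomotopyCategory (ComplexShape.up ℤ)).map f) := by
  have e : (HomotopyCategory.quotient C (ComplexShape.up ℤ)).obj (Y⟦n⟧) ≅
    ((HomotopyCategory.quotient C (ComplexShape.up ℤ)).obj Y)⟦n⟧ :=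
      ((HomotopyCategory.quotient C (ComplexShape.up ℤ)).commShiftIso n).app Y
  have h1 := term_bij π (X := X) (Y := Y⟦n⟧) (fun i j => h i (j + n))
  constructor
  · intro f g hfg
    have h2 : (π.mapHomotopyCategory (ComplexShape.up ℤ)).map (f ≫ e.inv) =
        (π.mapHomotopyCategory (ComplexShape.up ℤ)).map (g ≫ e.inv) := by
      rw [Functor.map_comp, Functor.map_comp]
      exact congrArg (· ≫ _) hfg
    have h3 := h1.1 h2
    rwa [cancel_mono] at h3
  · intro g
    obtain ⟨f, hf⟩ := h1.2 (g ≫ (π.mapHomotopyCategory (ComplexShape.up ℤ)).map e.inv)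
    refine ⟨f ≫ e.hom, ?_⟩
    have hf' : (π.mapHomotopyCategory (ComplexShape.up ℤ)).map f =
      g ≫ (π.mapHomotopyCategory (ComplexShape.up ℤ)).map e.inv := hf
    change (π.mapHomotopyCategory (ComplexShape.up ℤ)).map (f ≫ e.hom) = g
    rw [Functor.map_comp, hf', Category.assoc, ← Functor.map_comp, e.inv_hom_id,
      CategoryTheory.Functor.map_id, Category.comp_id]

section tri

open Pretriangulated

variable {K : Type*} {D : Type*} {D' : Type*} [Category K] [Category D] [Category D']
  [Preadditive K] [Preadditive D] [Preadditive D'] [HasZeroObject K] [HasZeroObject D]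
  [HasZeroObject D'] [HasShift K ℤ] [HasShift D ℤ] [HasShift D' ℤ]
  [∀ n : ℤ, (shiftFunctor K n).Additive] [∀ n : ℤ, (shiftFunctor D n).Additive]
  [∀ n : ℤ, (shiftFunctor D' n).Additive] [Pretriangulated K] [Pretriangulated D]
  [Pretriangulated D'] {F : K ⥤ D} {G : D ⥤ D'}

theorem Inj.comp {X Y : K} (h : Inj F X Y) (h' : Inj G (F.obj X) (F.obj Y)) :
    Inj (F ⋙ G) X Y := fun f hf => h f (h' _ hf)

theorem Sur.comp {X Y : K} (h : Sur F X Y) (h' : Sur G (F.obj X) (F.obj Y)) :
    Sur (F ⋙ G) X Y := fun g => by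
  obtain ⟨g', hg'⟩ := h' g
  obtain ⟨f, hf⟩ := h g'
  exact ⟨f, by rw [Functor.comp_map, hf, hg']⟩

end tri

section ab

universe w

variable {A : Type u₁} {B : Type u₂} [Category.{v₁} A] [Category.{v₂} B] [Abelian A] [Abelian B]
  [HasDerivedCategory.{w} B] (π : A ⥤ B) [π.Additive]

/-- the comparison `Hom_{K(A)}(X, Y⟦n⟧) → Hom_{D(B)}(πX, πY⟦n⟧)` is bijective for `X` bounded above,
`Y` bounded below, `π` bijective on all `Hom(Xⁱ, Yʲ)` and `Ext^n(πXⁱ, πYʲ) = 0` for `n ≥ 1`. -/
theorem ffπ (X Y : CochainComplex A ℤ) (a b : ℤ) (hX : X.IsStrictlyLE a) (hY : Y.IsStrictlyGE b)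
    (hb : ∀ i j, Function.Bijective (fun f : X.X i ⟶ Y.X j => π.map f))
    (h : ∀ i j n : ℤ, 0 < n → ∀ f : (DerivedCategory.singleFunctor B 0).obj (π.obj (X.X i)) ⟶
      ((DerivedCategory.singleFunctor B 0).obj (π.obj (Y.X j)))⟦n⟧, f = 0) (n : ℤ) :
    Inj (π.mapHomotopyCategory (ComplexShape.up ℤ) ⋙ DerivedCategory.Qh)
      ((HomotopyCategory.quotient A (ComplexShape.up ℤ)).obj X)
      (((HomotopyCategory.quotient A (ComplexShape.up ℤ)).obj Y)⟦n⟧) ∧
    Sur (π.mapHomotopyCategory (ComplexShape.up ℤ) ⋙ DerivedCategory.Qh)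
      ((HomotopyCategory.quotient A (ComplexShape.up ℤ)).obj X)
      (((HomotopyCategory.quotient A (ComplexShape.up ℤ)).obj Y)⟦n⟧) := by
  have hX' : CochainComplex.IsStrictlyLE ((π.mapHomologicalComplex (ComplexShape.up ℤ)).obj X) a := by
    rw [CochainComplex.isStrictlyLE_iff]
    exact fun i hi => π.map_isZero (X.isZero_of_isStrictlyLE a i hi)
  have hY' : CochainComplex.IsStrictlyGE ((π.mapHomologicalComplex (ComplexShape.up ℤ)).obj Y) b := by
    rw [CochainComplex.isStrictlyGE_iff]
    exact fun i hi => π.map_isZero (Y.isZero_of_isStrictlyGE b i hi)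
  have h1 := ffS ((π.mapHomologicalComplex (ComplexShape.up ℤ)).obj X)
    ((π.mapHomologicalComplex (ComplexShape.up ℤ)).obj Y) a b hX' hY' h
  have h2 := term_bij_shift π (X := X) (Y := Y) hb n
  have e : ((HomotopyCategory.quotient B (ComplexShape.up ℤ)).obj
      ((π.mapHomologicalComplex (ComplexShape.up ℤ)).obj Y))⟦n⟧ ≅
      (π.mapHomotopyCategory (ComplexShape.up ℤ)).obj
        (((HomotopyCategory.quotient A (ComplexShape.up ℤ)).obj Y)⟦n⟧) :=
    (((π.mapHomotopyCategory (ComplexShape.up ℤ)).commShiftIso n).app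
      ((HomotopyCategory.quotient A (ComplexShape.up ℤ)).obj Y)).symm
  have i1 : Inj (DerivedCategory.Qh (C := B)) ((π.mapHomotopyCategory (ComplexShape.up ℤ)).obj
      ((HomotopyCategory.quotient A (ComplexShape.up ℤ)).obj X))
      ((π.mapHomotopyCategory (ComplexShape.up ℤ)).obj
        (((HomotopyCategory.quotient A (ComplexShape.up ℤ)).obj Y)⟦n⟧)) :=
    (h1.1 n).iso (Iso.refl _) e
  have s1 : Sur (DerivedCategory.Qh (C := B)) ((π.mapHomotopyCategory (ComplexShape.up ℤ)).obj
      ((HomotopyCategory.quotient A (ComplexShape.up ℤ)).obj X))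
      ((π.mapHomotopyCategory (ComplexShape.up ℤ)).obj
        (((HomotopyCategory.quotient A (ComplexShape.up ℤ)).obj Y)⟦n⟧)) :=
    (h1.2 n).iso (Iso.refl _) e
  refine ⟨fun f hf => ?_, fun g => ?_⟩
  · have h3 : (π.mapHomotopyCategory (ComplexShape.up ℤ)).map f = 0 := i1 _ hf
    apply h2.1
    change (π.mapHomotopyCategory (ComplexShape.up ℤ)).map f =
      (π.mapHomotopyCategory (ComplexShape.up ℤ)).map 0
    rw [h3, Functor.map_zero]
  · obtain ⟨g', hg'⟩ := s1 g
    obtain ⟨f, hf⟩ := h2.2 g'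
    refine ⟨f, ?_⟩
    rw [← hg', ← hf]
    rfl

end ab

end Vale.Agent.P287Z.O.H409
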