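import Vale.Agent.P287Z.O.H409.Peel

/-!
# Effaceability of `Ext` (P287 port of P294, block B5)
-/

open CategoryTheory Limits Category HomologicalComplex Abelian

universe w v u

namespace Vale.Agent.P287Z.O.H409

variable {C : Type u} [Category.{v} C] [Abelian C] [HasExt.{w} C]

/-- every class of positive degree is killed by an epimorphism onto the source -/
theorem efface {M N : C} {j : ℕ} (α : Ext M N (j + 1)) :
    ∃ (M' : C) (p : M' ⟶ M), Epi p ∧ (Ext.mk₀ p).comp α (zero_add _) = 0 := by
  let _ := HasDerivedCategory.standard C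
  let e : ((DerivedCategory.singleFunctor C 0).obj N)⟦((j + 1 : ℕ) : ℤ)⟧ ≅
      (DerivedCategory.singleFunctor C (-((j + 1 : ℕ) : ℤ))).obj N :=
    ((DerivedCategory.singleFunctors C).shiftIso ((j + 1 : ℕ) : ℤ) (-((j + 1 : ℕ) : ℤ)) 0
      (by lia)).app N
  let SM : CochainComplex C ℤ := (single C (ComplexShape.up ℤ) 0).obj M
  let SN : CochainComplex C ℤ := (single C (ComplexShape.up ℤ) (-((j + 1 : ℕ) : ℤ))).obj N
  let f : DerivedCategory.Q.obj SM ⟶ DerivedCategory.Q.obj SN := α.hom ≫ e.hom
  obtain ⟨X', hX', s, hs, g, hf⟩ := DerivedCategory.right_fac_of_isStrictlyLE f 0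
  let p : X'.X 0 ⟶ M := s.f 0 ≫ (singleObjXSelf (ComplexShape.up ℤ) 0 M).hom
  have hιs : topι X' 0 ≫ s = (single C (ComplexShape.up ℤ) 0).map p := by
    apply HomologicalComplex.from_single_hom_ext
    rw [single_map_f_self, comp_f, topι, mkHomFromSingle_f]
    simp [p]
  have hιg : topι X' 0 ≫ g = 0 := by
    apply HomologicalComplex.from_single_hom_ext
    exact (isZero_single_obj_X (ComplexShape.up ℤ) (-((j + 1 : ℕ) : ℤ)) N 0 (by lia)).eq_of_tgt _ _
  refine ⟨X'.X 0, p, ?_, ?_⟩
  · apply Preadditive.epi_of_cancel_zero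
    intro Z h hh
    have h1 : s ≫ (single C (ComplexShape.up ℤ) 0).map h = 0 := by
      apply HomologicalComplex.to_single_hom_ext
      rw [comp_f, single_map_f_self, zero_f, ← Category.assoc, ← Category.assoc]
      change (p ≫ h) ≫ _ = 0
      rw [hh, zero_comp]
    have h2 : DerivedCategory.Q.map ((single C (ComplexShape.up ℤ) 0).map h) = 0 := by
      rw [← cancel_epi (DerivedCategory.Q.map s), ← Functor.map_comp, h1, Functor.map_zero,
        comp_zero]
    exact (DerivedCategory.singleFunctor C 0).map_injective (by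
      rw [Functor.map_zero]; exact h2)
  · apply Ext.ext
    rw [Ext.comp_hom, Ext.mk₀_hom, ShiftedHom.mk₀_comp, Ext.zero_hom]
    rw [← cancel_mono e.hom, zero_comp, Category.assoc]
    have h4 : DerivedCategory.Q.map (topι X' 0) ≫ DerivedCategory.Q.map s ≫ f = 0 := by
      rw [hf, IsIso.hom_inv_id_assoc, ← Functor.map_comp, hιg, Functor.map_zero]
    have h5 : DerivedCategory.Q.map ((single C (ComplexShape.up ℤ) 0).map p) ≫ f = 0 := by
      rw [← hιs, Functor.map_comp, Category.assoc, h4]
    exact h5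

end Vale.Agent.P287Z.O.H409
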