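import Mathlib

set_option linter.unusedSectionVars false

/-!
# Comparison of `Hom` groups along a triangulated functor: devissage lemmas (P287 port of P294)
-/

open CategoryTheory Limits Pretriangulated Category

universe v₁ v₂ u₁ u₂

namespace Vale.Agent.P287Z.O.H409

section

variable {K : Type u₁} {D : Type u₂} [Category.{v₁} K] [Category.{v₂} D] [Preadditive K]
  [Preadditive D] [HasZeroObject K] [HasZeroObject D] [HasShift K ℤ] [HasShift D ℤ]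
  [∀ n : ℤ, (shiftFunctor K n).Additive] [∀ n : ℤ, (shiftFunctor D n).Additive]
  [Pretriangulated K] [Pretriangulated D] (F : K ⥤ D)

/-- `F` is injective on `Hom(X, Y)` -/
def Inj (X Y : K) : Prop := ∀ f : X ⟶ Y, F.map f = 0 → f = 0

/-- `F` is surjective on `Hom(X, Y)` -/
def Sur (X Y : K) : Prop := ∀ g : F.obj X ⟶ F.obj Y, ∃ f : X ⟶ Y, F.map f = g

variable {F}

theorem Inj.bij [F.Additive] {X Y : K} (h : Inj F X Y) (h' : Sur F X Y) :
    Function.Bijective (fun f : X ⟶ Y => F.map f) :=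
  ⟨fun f g hfg => sub_eq_zero.1 (h _ (by rw [F.map_sub, sub_eq_zero]; exact hfg)), h'⟩

theorem Inj.iso {X Y X' Y' : K} (h : Inj F X Y) (e : X ≅ X') (e' : Y ≅ Y') : Inj F X' Y' := by
  intro f hf
  have h1 : e.hom ≫ f ≫ e'.inv = 0 := by
    refine h _ ?_
    rw [F.map_comp, F.map_comp, hf, zero_comp, comp_zero]
  have h2 : f = e.inv ≫ (e.hom ≫ f ≫ e'.inv) ≫ e'.hom := by simp
  rw [h2, h1, zero_comp, comp_zero]

theorem Sur.iso {X Y X' Y' : K} (h : Sur F X Y) (e : X ≅ X') (e' : Y ≅ Y') : Sur F X' Y' := by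
  intro g
  obtain ⟨f, hf⟩ := h (F.map e.hom ≫ g ≫ F.map e'.inv)
  refine ⟨e.inv ≫ f ≫ e'.hom, ?_⟩
  rw [F.map_comp, F.map_comp, hf]
  simp [← F.map_comp_assoc, ← F.map_comp]

variable [F.CommShift ℤ]

theorem Inj.shift {X Y : K} (h : Inj F X Y) (a : ℤ) : Inj F (X⟦a⟧) (Y⟦a⟧) := by
  intro f hf
  obtain ⟨f', rfl⟩ := (shiftFunctor K a).map_surjective f
  have h1 : F.map f' = 0 := by
    apply (shiftFunctor D a).map_injective
    have := (F.commShiftIso a).hom.naturality f'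
    dsimp at this
    rw [hf, zero_comp] at this
    rw [Functor.map_zero, ← cancel_epi ((F.commShiftIso a).hom.app X), ← this, comp_zero]
  rw [h _ h1, Functor.map_zero]

theorem Sur.shift {X Y : K} (h : Sur F X Y) (a : ℤ) : Sur F (X⟦a⟧) (Y⟦a⟧) := by
  intro g
  obtain ⟨g', hg'⟩ := (shiftFunctor D a).map_surjective
    ((F.commShiftIso a).inv.app X ≫ g ≫ (F.commShiftIso a).hom.app Y)
  obtain ⟨f, hf⟩ := h g'
  refine ⟨f⟦a⟧', ?_⟩
  have := (F.commShiftIso a).hom.naturality f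
  dsimp at this
  rw [hf, hg'] at this
  rw [← cancel_mono ((F.commShiftIso a).hom.app Y), this]
  simp

theorem Inj.shiftl {X Y : K} {a : ℤ} (h : Inj F X (Y⟦-a⟧)) : Inj F (X⟦a⟧) Y :=
  (h.shift a).iso (Iso.refl _) ((shiftFunctorCompIsoId K (-a) a (by lia)).app Y)

theorem Sur.shiftl {X Y : K} {a : ℤ} (h : Sur F X (Y⟦-a⟧)) : Sur F (X⟦a⟧) Y :=
  (h.shift a).iso (Iso.refl _) ((shiftFunctorCompIsoId K (-a) a (by lia)).app Y)

/-- all shifts of the target -/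
def InjS (F : K ⥤ D) (X Y : K) : Prop := ∀ n : ℤ, Inj F X (Y⟦n⟧)

/-- all shifts of the target -/
def SurS (F : K ⥤ D) (X Y : K) : Prop := ∀ n : ℤ, Sur F X (Y⟦n⟧)

theorem InjS.shiftl {X Y : K} (h : InjS F X Y) (a : ℤ) : InjS F (X⟦a⟧) Y := fun n =>
  Inj.shiftl ((h (n + (-a))).iso (Iso.refl _) ((shiftFunctorAdd K n (-a)).app Y))

theorem SurS.shiftl {X Y : K} (h : SurS F X Y) (a : ℤ) : SurS F (X⟦a⟧) Y := fun n =>
  Sur.shiftl ((h (n + (-a))).iso (Iso.refl _) ((shiftFunctorAdd K n (-a)).app Y))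

theorem InjS.shiftr {X Y : K} (h : InjS F X Y) (a : ℤ) : InjS F X (Y⟦a⟧) := fun n =>
  (h (a + n)).iso (Iso.refl _) ((shiftFunctorAdd K a n).app Y)

theorem SurS.shiftr {X Y : K} (h : SurS F X Y) (a : ℤ) : SurS F X (Y⟦a⟧) := fun n =>
  (h (a + n)).iso (Iso.refl _) ((shiftFunctorAdd K a n).app Y)

variable [F.IsTriangulated]

/-- the connecting map `T.obj₃⟦-1⟧ ⟶ T.obj₁` -/
noncomputable def con (T : Triangle K) : T.obj₃⟦(-1 : ℤ)⟧ ⟶ T.obj₁ := T.invRotate.mor₁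

theorem con_comp {T : Triangle K} (hT : T ∈ distTriang K) : con T ≫ T.mor₁ = 0 :=
  comp_distTriang_mor_zero₁₂ _ (inv_rot_of_distTriang _ hT)

theorem con_exact {T : Triangle K} (hT : T ∈ distTriang K) {Y : K} (u : T.obj₁ ⟶ Y)
    (h : con T ≫ u = 0) : ∃ w : T.obj₂ ⟶ Y, u = T.mor₁ ≫ w :=
  Triangle.yoneda_exact₂ _ (inv_rot_of_distTriang _ hT) u h

theorem con_exact' {T : Triangle K} (hT : T ∈ distTriang K) {X : K} (v : X ⟶ T.obj₁)
    (h : v ≫ T.mor₁ = 0) : ∃ w : X ⟶ T.obj₃⟦(-1 : ℤ)⟧, v = w ≫ con T :=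
  Triangle.coyoneda_exact₂ _ (inv_rot_of_distTriang _ hT) v h

theorem con_exact'' {T : Triangle K} (hT : T ∈ distTriang K) {X : K}
    (v : F.obj X ⟶ F.obj T.obj₁)
    (h : v ≫ F.map T.mor₁ = 0) : ∃ w : F.obj X ⟶ F.obj (T.obj₃⟦(-1 : ℤ)⟧),
      v = w ≫ F.map (con T) :=
  Triangle.coyoneda_exact₂ _ (F.map_distinguished _ (inv_rot_of_distTriang _ hT)) v h

/-- four lemma, first variable -/
theorem sur_mid [F.Additive] {T : Triangle K} (hT : T ∈ distTriang K) {Y : K}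
    (h1 : Sur F T.obj₁ Y) (h3 : Inj F (T.obj₃⟦(-1 : ℤ)⟧) Y) (h3' : Sur F T.obj₃ Y) :
    Sur F T.obj₂ Y := by
  intro g
  obtain ⟨u, hu⟩ := h1 (F.map T.mor₁ ≫ g)
  have e1 : con T ≫ u = 0 := by
    apply h3
    rw [F.map_comp, hu, ← F.map_comp_assoc, con_comp hT, F.map_zero, zero_comp]
  obtain ⟨u2, hu2⟩ := con_exact hT u e1
  have e2 : F.map T.mor₁ ≫ (g - F.map u2) = 0 := by
    rw [Preadditive.comp_sub, ← F.map_comp, ← hu2, hu, sub_self]
  obtain ⟨w, hw⟩ := Triangle.yoneda_exact₂ _ (F.map_distinguished _ hT) _ e2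
  obtain ⟨w', rfl⟩ := h3' w
  refine ⟨u2 + T.mor₂ ≫ w', ?_⟩
  rw [F.map_add, F.map_comp]
  have hw2 : g - F.map u2 = F.map T.mor₂ ≫ F.map w' := hw
  rw [← hw2]
  abel

/-- four lemma, first variable -/
theorem inj_mid [F.Additive] {T : Triangle K} (hT : T ∈ distTriang K) {Y : K}
    (h1 : Inj F T.obj₁ Y) (h3 : Inj F T.obj₃ Y) (h1' : Sur F (T.obj₁⟦(1 : ℤ)⟧) Y) :
    Inj F T.obj₂ Y := by
  intro u hu
  have e1 : T.mor₁ ≫ u = 0 := h1 _ (by rw [F.map_comp, hu, comp_zero])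
  obtain ⟨v, rfl⟩ := Triangle.yoneda_exact₂ _ hT u e1
  have e2 : F.map T.mor₂ ≫ F.map v = 0 := by rw [← F.map_comp, hu]
  obtain ⟨w, hw⟩ : ∃ w : (F.obj T.obj₁)⟦(1 : ℤ)⟧ ⟶ F.obj Y,
      F.map v = (F.map T.mor₃ ≫ (F.commShiftIso (1 : ℤ)).hom.app T.obj₁) ≫ w :=
    Triangle.yoneda_exact₃ _ (F.map_distinguished _ hT) _ e2
  obtain ⟨w', hw'⟩ := h1' ((F.commShiftIso (1 : ℤ)).hom.app T.obj₁ ≫ w)
  have e3 : v = T.mor₃ ≫ w' := by
    rw [← sub_eq_zero]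
    apply h3
    rw [F.map_sub, F.map_comp, hw', hw, Category.assoc, sub_self]
  rw [e3]
  have := comp_distTriang_mor_zero₂₃ _ hT
  rw [← Category.assoc, this, zero_comp]

/-- four lemma, second variable -/
theorem sur_mid' [F.Additive] {T : Triangle K} (hT : T ∈ distTriang K) {X : K}
    (h3 : Sur F X T.obj₃) (h1 : Inj F X (T.obj₁⟦(1 : ℤ)⟧)) (h1' : Sur F X T.obj₁) :
    Sur F X T.obj₂ := by
  intro g
  obtain ⟨u, hu⟩ := h3 (g ≫ F.map T.mor₂)
  have e1 : u ≫ T.mor₃ = 0 := by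
    apply h1
    rw [F.map_comp, hu, Category.assoc, ← F.map_comp, comp_distTriang_mor_zero₂₃ _ hT,
      F.map_zero, comp_zero]
  obtain ⟨u2, hu2⟩ := Triangle.coyoneda_exact₃ _ hT u e1
  have e2 : (g - F.map u2) ≫ F.map T.mor₂ = 0 := by
    rw [Preadditive.sub_comp, ← F.map_comp, ← hu2, hu, sub_self]
  obtain ⟨w, hw⟩ := Triangle.coyoneda_exact₂ _ (F.map_distinguished _ hT) _ e2
  obtain ⟨w', rfl⟩ := h1' w
  refine ⟨u2 + w' ≫ T.mor₁, ?_⟩
  rw [F.map_add, F.map_comp]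
  have hw2 : g - F.map u2 = F.map w' ≫ F.map T.mor₁ := hw
  rw [← hw2]
  abel

/-- four lemma, second variable -/
theorem inj_mid' [F.Additive] {T : Triangle K} (hT : T ∈ distTriang K) {X : K}
    (h1 : Inj F X T.obj₁) (h3 : Inj F X T.obj₃) (h3' : Sur F X (T.obj₃⟦(-1 : ℤ)⟧)) :
    Inj F X T.obj₂ := by
  intro u hu
  have e1 : u ≫ T.mor₂ = 0 := h3 _ (by rw [F.map_comp, hu, zero_comp])
  obtain ⟨v, rfl⟩ := Triangle.coyoneda_exact₂ _ hT u e1
  have e2 : F.map v ≫ F.map T.mor₁ = 0 := by rw [← F.map_comp, hu]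
  obtain ⟨w, hw⟩ := con_exact'' hT (F.map v) e2
  obtain ⟨w', hw'⟩ := h3' w
  have e3 : v = w' ≫ con T := by
    rw [← sub_eq_zero]
    apply h1
    rw [F.map_sub, F.map_comp, hw', hw, sub_self]
  rw [e3, Category.assoc, con_comp hT, comp_zero]

/-- devissage along an infinite filtration of the source: distinguished triangles
`S k → X k → X (k + 1) →` with `F` bijective on all `Hom(S k, Y⟦n⟧)`, and for each `n` all maps
`X k → Y⟦n⟧` and `F X k → F Y⟦n⟧` zero for large `k` -/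
theorem tower [F.Additive] {S X : ℕ → K} {Y : K}
    (hT : ∀ k, ∃ (f : S k ⟶ X k) (g : X k ⟶ X (k + 1)) (h : X (k + 1) ⟶ (S k)⟦(1 : ℤ)⟧),
      Triangle.mk f g h ∈ distTriang K)
    (hi : ∀ k, InjS F (S k) Y) (hs : ∀ k, SurS F (S k) Y)
    (hz : ∀ n : ℤ, ∃ k₀, ∀ k ≥ k₀, (∀ f : X k ⟶ Y⟦n⟧, f = 0) ∧
      (∀ f : F.obj (X k) ⟶ F.obj (Y⟦n⟧), f = 0)) :
    InjS F (X 0) Y ∧ SurS F (X 0) Y := by
  have A : ∀ (n : ℤ) (k : ℕ), Inj F (X k) (Y⟦n⟧) := by
    intro n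
    obtain ⟨k₀, hk₀⟩ := hz n
    have : ∀ j k : ℕ, k₀ ≤ k + j → Inj F (X k) (Y⟦n⟧) := by
      intro j
      induction j with
      | zero => exact fun k hk f _ => (hk₀ k (by simpa using hk)).1 f
      | succ j ih =>
        intro k hk
        obtain ⟨f, g, h, hd⟩ := hT k
        exact inj_mid (F := F) hd (hi k n) (ih (k + 1) (by lia)) ((hs k).shiftl 1 n)
    exact fun k => this k₀ k (by lia)
  have B : ∀ (n : ℤ) (k : ℕ), Sur F (X k) (Y⟦n⟧) := by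
    intro n
    obtain ⟨k₀, hk₀⟩ := hz n
    have : ∀ j k : ℕ, k₀ ≤ k + j → Sur F (X k) (Y⟦n⟧) := by
      intro j
      induction j with
      | zero => exact fun k hk g => ⟨0, by rw [F.map_zero, (hk₀ k (by simpa using hk)).2 g]⟩
      | succ j ih =>
        intro k hk
        obtain ⟨f, g, h, hd⟩ := hT k
        exact sur_mid hd (hs k n) (InjS.shiftl (fun m => A m (k + 1)) (-1) n)
          (ih (k + 1) (by lia))
    exact fun k => this k₀ k (by lia)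
  exact ⟨fun n => A n 0, fun n => B n 0⟩

/-- devissage along an infinite filtration of the target: distinguished triangles
`Y (k + 1) → Y k → S k →` with `F` bijective on all `Hom(X, S k⟦n⟧)`, and for each `n` all maps
`X → Y k⟦n⟧` and `F X → F Y k⟦n⟧` zero for large `k` -/
theorem tower' [F.Additive] {S Y : ℕ → K} {X : K}
    (hT : ∀ k, ∃ (f : Y (k + 1) ⟶ Y k) (g : Y k ⟶ S k) (h : S k ⟶ (Y (k + 1))⟦(1 : ℤ)⟧),
      Triangle.mk f g h ∈ distTriang K)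
    (hi : ∀ k, InjS F X (S k)) (hs : ∀ k, SurS F X (S k))
    (hz : ∀ n : ℤ, ∃ k₀, ∀ k ≥ k₀, (∀ f : X ⟶ (Y k)⟦n⟧, f = 0) ∧
      (∀ f : F.obj X ⟶ F.obj ((Y k)⟦n⟧), f = 0)) :
    InjS F X (Y 0) ∧ SurS F X (Y 0) := by
  have A : ∀ (n : ℤ) (k : ℕ), Inj F X ((Y k)⟦n⟧) := by
    intro n
    obtain ⟨k₀, hk₀⟩ := hz n
    have : ∀ j k : ℕ, k₀ ≤ k + j → Inj F X ((Y k)⟦n⟧) := by
      intro j
      induction j with
      | zero => exact fun k hk f _ => (hk₀ k (by simpa using hk)).1 f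
      | succ j ih =>
        intro k hk
        obtain ⟨f, g, h, hd⟩ := hT k
        exact inj_mid' (Triangle.shift_distinguished _ hd n) (ih (k + 1) (by lia)) (hi k n)
          (((hs k).shiftr n) (-1))
    exact fun k => this k₀ k (by lia)
  have B : ∀ (n : ℤ) (k : ℕ), Sur F X ((Y k)⟦n⟧) := by
    intro n
    obtain ⟨k₀, hk₀⟩ := hz n
    have : ∀ j k : ℕ, k₀ ≤ k + j → Sur F X ((Y k)⟦n⟧) := by
      intro j
      induction j with
      | zero => exact fun k hk g => ⟨0, by rw [F.map_zero, (hk₀ k (by simpa using hk)).2 g]⟩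
      | succ j ih =>
        intro k hk
        obtain ⟨f, g, h, hd⟩ := hT k
        exact sur_mid' (Triangle.shift_distinguished _ hd n) (hs k n)
          (InjS.shiftr (fun m => A m (k + 1)) n 1) (ih (k + 1) (by lia))
    exact fun k => this k₀ k (by lia)
  exact ⟨fun n => A n 0, fun n => B n 0⟩

end

end Vale.Agent.P287Z.O.H409
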